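import Vale.Agent.P338.TM.M.Slots

/-! The convolution of the slots of the two operands. -/

set_option linter.unusedVariables false

namespace Vale.Agent.P338.TM.M

open Vale.Agent.P338 Vale.Agent.P338.TM

/-- The product slot `gi*4Q + 2Q + r` (`Q = l*st`, `p = gi*Q + r`) holds `convW`. -/
theorem conv_xs_ys (P : Par) (s V : ℕ → ℕ) (l st G : ℕ) (hl : 0 < l) (hst : 0 < st)
    (hG : G * (l * st) = P.N) (p : ℕ) (hp : p < P.N) :
    conv (xs P s (l * st) V) (ys P l st)
      (p / (l * st) * (4 * (l * st)) + 2 * (l * st) + p % (l * st)) = convW P s l st V p := by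
  unfold conv convW inIdx
  obtain ⟨Q, hQ⟩ : ∃ Q, Q = l * st := ⟨_, rfl⟩
  obtain ⟨gi, hgi⟩ : ∃ gi, gi = p / Q := ⟨_, rfl⟩
  obtain ⟨r, hr⟩ : ∃ r, r = p % Q := ⟨_, rfl⟩
  obtain ⟨c, hc⟩ : ∃ c, c = p % st := ⟨_, rfl⟩
  obtain ⟨k, hk⟩ : ∃ k, k = p / st % l := ⟨_, rfl⟩
  rw [← hQ, ← hgi, ← hr, ← hc, ← hk]
  have hQpos : 0 < Q := by rw [hQ]; exact Nat.mul_pos hl hst
  have hrQ : r < Q := by rw [hr]; exact Nat.mod_lt _ hQpos
  have hgiG : gi < G := by
    rw [hgi]
    apply Nat.div_lt_of_lt_mul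
    rw [Nat.mul_comm, hQ, hG]
    exact hp
  have hcst : c < st := by rw [hc]; exact Nat.mod_lt _ hst
  have hkl : k < l := by rw [hk]; exact Nat.mod_lt _ hl
  have hr_eq : r = k * st + c := by
    have h1 : r / st = k := by rw [hr, hQ, hk]; exact Nat.mod_mul_left_div_self p st l
    have h2 : r % st = c := by rw [hr, hQ, hc]; exact Nat.mod_mul_left_mod p l st
    have h3 := Nat.div_add_mod r st
    rw [h1, h2] at h3
    rw [← h3]
    ring
  have h4N : 4 * P.N = G * (4 * Q) := by rw [← hG, hQ]; ring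
  obtain ⟨T, hT⟩ : ∃ T, T = gi * (4 * Q) + 2 * Q + r := ⟨_, rfl⟩
  rw [← hT]
  obtain ⟨φ, hφ⟩ : ∃ φ : ℕ → ℕ, φ = fun i => gi * (4 * Q) + (i * st + c) := ⟨_, rfl⟩
  have hφa : ∀ i, φ i = gi * (4 * Q) + (i * st + c) := fun i => by rw [hφ]
  have hb : ∀ i, i < l → i * st + c < Q := by
    intro i hi
    have h1 : (i + 1) * st ≤ l * st := Nat.mul_le_mul_right st hi
    rw [Nat.add_mul, Nat.one_mul, ← hQ] at h1
    omega
  have hφinj : Set.InjOn φ (Finset.range l : Finset ℕ) := by
    intro i _ j _ hij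
    rw [hφa, hφa] at hij
    have h1 : i * st = j * st := by omega
    exact Nat.eq_of_mul_eq_mul_right hst h1
  have hterm : ∀ i ∈ Finset.range l, xs P s Q V (φ i) * ys P l st (T - φ i)
      = V ((gi * l + i) * st + c) * 2 ^ (s ((gi * l + i) * st + c) * P.g)
        * 2 ^ ((P.N - chirpE P.N l (2 * l + k - i)) * P.g) := by
    intro i hi
    have hi' := Finset.mem_range.mp hi
    have hbi := hb i hi'
    have hmod : φ i % (4 * Q) = i * st + c := by
      rw [hφa]
      exact Nat.mul_add_mod_of_lt (by omega)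
    have hdiv : φ i / (4 * Q) = gi := by
      rw [hφa, Nat.mul_comm gi, Nat.mul_add_div (by omega), Nat.div_eq_of_lt (by omega),
        Nat.add_zero]
    have hlt : φ i < 4 * P.N := by
      rw [h4N, hφa]
      have h1 : (gi + 1) * (4 * Q) ≤ G * (4 * Q) := Nat.mul_le_mul_right _ hgiG
      rw [Nat.add_mul, Nat.one_mul] at h1
      omega
    have hidx : gi * Q + (i * st + c) = (gi * l + i) * st + c := by rw [hQ]; ring
    have hxs : xs P s Q V (φ i)
        = V ((gi * l + i) * st + c) * 2 ^ (s ((gi * l + i) * st + c) * P.g) := by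
      unfold xs
      rw [if_pos ⟨hlt, by rw [hmod]; exact hbi⟩, hmod, hdiv, hidx]
    obtain ⟨e, he⟩ : ∃ e, e = 2 * l + k - i := ⟨_, rfl⟩
    have hie : i + e = 2 * l + k := by omega
    have hTe : T - φ i = e * st := by
      have h5 : (i + e) * st = (2 * l + k) * st := by rw [hie]
      have h6 : T = φ i + e * st := by
        rw [hT, hφa, hr_eq, hQ]
        rw [Nat.add_mul, Nat.add_mul] at h5
        have h7 : 2 * (l * st) = 2 * l * st := by ring
        omega
      omega
    have hys : ys P l st (T - φ i) = 2 ^ ((P.N - chirpE P.N l (2 * l + k - i)) * P.g) := by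
      unfold ys
      rw [hTe, Nat.mul_div_cancel _ hst, if_pos ⟨Nat.mul_mod_left _ _, by omega⟩, he]
    rw [hxs, hys]
  have hsub : (Finset.range l).image φ ⊆ Finset.range (T + 1) := by
    intro u hu
    obtain ⟨i, hi, rfl⟩ := Finset.mem_image.mp hu
    have hbi := hb i (Finset.mem_range.mp hi)
    rw [Finset.mem_range, hφa, hT]
    omega
  have hzero : ∀ u ∈ Finset.range (T + 1), u ∉ (Finset.range l).image φ →
      xs P s Q V u * ys P l st (T - u) = 0 := by
    intro u hu hnot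
    by_contra hne
    have hx : xs P s Q V u ≠ 0 := left_ne_zero_of_mul hne
    have hy : ys P l st (T - u) ≠ 0 := right_ne_zero_of_mul hne
    have hu' : u ≤ T := Nat.lt_succ_iff.mp (Finset.mem_range.mp hu)
    have hxc : u < 4 * P.N ∧ u % (4 * Q) < Q := by
      by_contra hcond
      exact hx (by unfold xs; rw [if_neg hcond])
    have hyc : (T - u) % st = 0 ∧ (T - u) / st < 3 * l := by
      by_contra hcond
      exact hy (by unfold ys; rw [if_neg hcond])
    obtain ⟨a, ha⟩ : ∃ a, a = u / (4 * Q) := ⟨_, rfl⟩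
    obtain ⟨b, hbdef⟩ : ∃ b, b = u % (4 * Q) := ⟨_, rfl⟩
    have hbQ : b < Q := by rw [hbdef]; exact hxc.2
    have hu_eq : u = a * (4 * Q) + b := by
      rw [ha, hbdef, Nat.mul_comm]
      exact (Nat.div_add_mod u (4 * Q)).symm
    have hwin : T - u < 3 * Q := by
      have h1 := (Nat.div_lt_iff_lt_mul hst).mp hyc.2
      have h2 : 3 * l * st = 3 * Q := by rw [hQ]; ring
      omega
    have hag : a = gi := by
      rcases Nat.lt_trichotomy a gi with h | h | h
      · exfalso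
        have h1 : (a + 1) * (4 * Q) ≤ gi * (4 * Q) := Nat.mul_le_mul_right _ h
        rw [Nat.add_mul, Nat.one_mul] at h1
        omega
      · exact h
      · exfalso
        have h1 : (gi + 1) * (4 * Q) ≤ a * (4 * Q) := Nat.mul_le_mul_right _ h
        rw [Nat.add_mul, Nat.one_mul] at h1
        omega
    subst hag
    obtain ⟨d, hd⟩ : ∃ d, d = (T - u) / st := ⟨_, rfl⟩
    have hTu : T - u = d * st := by
      have h1 := Nat.div_add_mod (T - u) st
      rw [hyc.1, ← hd, Nat.add_zero, Nat.mul_comm] at h1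
      exact h1.symm
    obtain ⟨i, hi⟩ : ∃ i, i = b / st := ⟨_, rfl⟩
    obtain ⟨c', hc'⟩ : ∃ c', c' = b % st := ⟨_, rfl⟩
    have hb_eq : b = i * st + c' := by
      rw [hi, hc', Nat.mul_comm]
      exact (Nat.div_add_mod b st).symm
    have hc'st : c' < st := by rw [hc']; exact Nat.mod_lt _ hst
    have heq : (2 * l + k) * st + c = (i + d) * st + c' := by
      rw [Nat.add_mul, Nat.add_mul]
      have h7 : 2 * Q = 2 * l * st := by rw [hQ]; ring
      omega
    have hcc : c = c' := by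
      have h1 : ((2 * l + k) * st + c) % st = c := Nat.mul_add_mod_of_lt hcst
      have h2 : ((i + d) * st + c') % st = c' := Nat.mul_add_mod_of_lt hc'st
      rw [← h1, heq, h2]
    have hil : i < l := by
      rw [hi]
      apply Nat.div_lt_of_lt_mul
      rw [Nat.mul_comm, ← hQ]
      exact hbQ
    apply hnot
    refine Finset.mem_image.mpr ⟨i, Finset.mem_range.mpr hil, ?_⟩
    rw [hφa, hu_eq, hb_eq, hcc]
  rw [← Finset.sum_subset hsub hzero, Finset.sum_image hφinj]
  exact Finset.sum_congr rfl hterm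

theorem conv_aux_Ng (P : Par) (hV : P.Valid) : P.N * P.g = 2 * P.m := by
  unfold Par.N
  exact hV.hm.symm

theorem conv_aux_key (P : Par) (hV : P.Valid) : 3 * P.N * 2 ^ (6 * P.m + 2) < 2 ^ (8 * P.m) := by
  have hNg := conv_aux_Ng P hV
  have hN : P.N ≤ 2 * P.m := by
    calc P.N = P.N * 1 := (Nat.mul_one _).symm
      _ ≤ P.N * P.g := Nat.mul_le_mul_left _ hV.g1
      _ = 2 * P.m := hNg
  have hm : 7 ≤ P.m := by have := hV.hf; omega
  obtain ⟨n, hn⟩ : ∃ n, 2 * P.m - 2 = n + 4 := ⟨2 * P.m - 6, by omega⟩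
  have h1 : n < 2 ^ n := Nat.lt_two_pow_self
  have h2 : 3 * P.N < 2 ^ (n + 4) := by
    rw [pow_add]
    norm_num
    omega
  have h3 : 8 * P.m = (n + 4) + (6 * P.m + 2) := by omega
  calc 3 * P.N * 2 ^ (6 * P.m + 2) < 2 ^ (n + 4) * 2 ^ (6 * P.m + 2) :=
        Nat.mul_lt_mul_of_pos_right h2 (Nat.two_pow_pos _)
    _ = 2 ^ (8 * P.m) := by rw [← pow_add, h3]

theorem conv_aux_V_le (P : Par) (hV : P.Valid) (s V : ℕ → ℕ) (hs : ∀ j, s j < P.N)
    (hVb : ∀ j, V j < 2 ^ (2 * P.m + 2)) (j : ℕ) :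
    V j * 2 ^ (s j * P.g) ≤ 2 ^ (4 * P.m + 2) := by
  have h1 : s j * P.g ≤ 2 * P.m := by
    rw [← conv_aux_Ng P hV]
    exact Nat.mul_le_mul_right _ (hs j).le
  calc V j * 2 ^ (s j * P.g) ≤ 2 ^ (2 * P.m + 2) * 2 ^ (2 * P.m) :=
        Nat.mul_le_mul (hVb j).le (Nat.pow_le_pow_right (by norm_num) h1)
    _ = 2 ^ (4 * P.m + 2) := by rw [← pow_add]; congr 1; omega

theorem conv_aux_pow_le (P : Par) (hV : P.Valid) (x : ℕ) :
    2 ^ ((P.N - x) * P.g) ≤ 2 ^ (2 * P.m) := by
  apply Nat.pow_le_pow_right (by norm_num)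
  rw [← conv_aux_Ng P hV]
  exact Nat.mul_le_mul_right _ (Nat.sub_le _ _)

theorem conv_aux_B (m : ℕ) : 2 ^ (4 * m + 2) * 2 ^ (2 * m) = 2 ^ (6 * m + 2) := by
  rw [← pow_add]
  congr 1
  omega

/-- No slot of the product overflows. -/
theorem conv_lt (P : Par) (hV : P.Valid) (s V : ℕ → ℕ) (l st : ℕ) (hst : 0 < st)
    (hl : l ≤ P.N) (hs : ∀ j, s j < P.N) (hVb : ∀ j, V j < 2 ^ (2 * P.m + 2)) (Q t : ℕ) :
    conv (xs P s Q V) (ys P l st) t < 2 ^ (8 * P.m) := by
  unfold conv
  have hxs : ∀ u, xs P s Q V u ≤ 2 ^ (4 * P.m + 2) := by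
    intro u
    unfold xs
    split_ifs with h
    · exact conv_aux_V_le P hV s V hs hVb _
    · exact Nat.zero_le _
  have hterm : ∀ i ∈ Finset.range (t + 1), xs P s Q V i * ys P l st (t - i)
      ≤ if (t - i) % st = 0 ∧ (t - i) / st < 3 * l then 2 ^ (6 * P.m + 2) else 0 := by
    intro i _
    by_cases hc : (t - i) % st = 0 ∧ (t - i) / st < 3 * l
    · rw [if_pos hc, ← conv_aux_B]
      refine Nat.mul_le_mul (hxs i) ?_
      unfold ys
      rw [if_pos hc]
      exact conv_aux_pow_le P hV _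
    · rw [if_neg hc]
      unfold ys
      rw [if_neg hc, Nat.mul_zero]
  have hcard : ((Finset.range (t + 1)).filter
      (fun i => (t - i) % st = 0 ∧ (t - i) / st < 3 * l)).card ≤ 3 * l := by
    have h1 := Finset.card_le_card_of_injOn
      (s := (Finset.range (t + 1)).filter (fun i => (t - i) % st = 0 ∧ (t - i) / st < 3 * l))
      (t := Finset.range (3 * l)) (fun i => (t - i) / st)
      (by
        intro i hi
        have h2 := (Finset.mem_filter.mp (Finset.mem_coe.mp hi)).2.2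
        exact Finset.mem_coe.mpr (Finset.mem_range.mpr h2))
      (by
        intro i hi j hj hij
        have hi' := Finset.mem_filter.mp (Finset.mem_coe.mp hi)
        have hj' := Finset.mem_filter.mp (Finset.mem_coe.mp hj)
        have hi1 := Finset.mem_range.mp hi'.1
        have hj1 := Finset.mem_range.mp hj'.1
        have e1 := Nat.div_add_mod (t - i) st
        have e2 := Nat.div_add_mod (t - j) st
        simp only [] at hij
        rw [hi'.2.1, hij] at e1
        rw [hj'.2.1] at e2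
        omega)
    rwa [Finset.card_range] at h1
  calc ∑ i ∈ Finset.range (t + 1), xs P s Q V i * ys P l st (t - i)
      ≤ ∑ i ∈ Finset.range (t + 1),
          (if (t - i) % st = 0 ∧ (t - i) / st < 3 * l then 2 ^ (6 * P.m + 2) else 0) :=
        Finset.sum_le_sum hterm
    _ = ((Finset.range (t + 1)).filter
          (fun i => (t - i) % st = 0 ∧ (t - i) / st < 3 * l)).card * 2 ^ (6 * P.m + 2) := by
        rw [← Finset.sum_filter, Finset.sum_const, smul_eq_mul]
    _ ≤ 3 * P.N * 2 ^ (6 * P.m + 2) :=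
        Nat.mul_le_mul_right _ (hcard.trans (Nat.mul_le_mul_left 3 hl))
    _ < 2 ^ (8 * P.m) := conv_aux_key P hV

theorem convW_lt (P : Par) (hV : P.Valid) (s V : ℕ → ℕ) (l st : ℕ)
    (hl : l ≤ P.N) (hs : ∀ j, s j < P.N) (hVb : ∀ j, V j < 2 ^ (2 * P.m + 2)) (p : ℕ) :
    convW P s l st V p < 2 ^ (8 * P.m) := by
  unfold convW
  calc ∑ i ∈ Finset.range l,
        V (inIdx l st p i) * 2 ^ (s (inIdx l st p i) * P.g)
          * 2 ^ ((P.N - chirpE P.N l (2 * l + p / st % l - i)) * P.g)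
      ≤ ∑ _i ∈ Finset.range l, 2 ^ (6 * P.m + 2) := by
        refine Finset.sum_le_sum (fun i _ => ?_)
        rw [← conv_aux_B]
        exact Nat.mul_le_mul (conv_aux_V_le P hV s V hs hVb _) (conv_aux_pow_le P hV _)
    _ = l * 2 ^ (6 * P.m + 2) := by rw [Finset.sum_const, Finset.card_range, smul_eq_mul]
    _ ≤ 3 * P.N * 2 ^ (6 * P.m + 2) := Nat.mul_le_mul_right _ (by omega)
    _ < 2 ^ (8 * P.m) := conv_aux_key P hV

end Vale.Agent.P338.TM.M
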