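import Vale.Agent.P338.TM.M.List

/-! Encoding and decoding of an entry. -/

namespace Vale.Agent.P338.TM.M

open Vale.Agent.P338 Vale.Agent.P338.TM

/-- The number that carries the entry `u`. -/
def zin (u : List Bool) : ℕ := 8 + 64 * (1 + 2 * lval u)

theorem zin_lt (u : List Bool) : zin u < 2 ^ (u.length + 7) := by
  sorry

theorem encBlock_length (f : ℕ) (u : List Bool) :
    (encBlock f u).length = 2 * (f + 7 + u.length) + 2 := by
  sorry

/-- The value of an encoded entry, `m = f + 7 + |u|`. -/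
theorem lval_encBlock (f : ℕ) (u : List Bool) :
    lval (encBlock f u) =
      (zin u - 1) + (2 ^ (f + 7 + u.length) - zin u) * 2 ^ (f + 7 + u.length) := by
  sorry

/-- The canonical representative of `z (1 - 2^m)` modulo `2^(2m) - 1`. -/
def canon (m z : ℕ) : ℕ := (z - 1) + (2 ^ m - z) * 2 ^ m

/-- Reading off the entry: `v = canon m (2^ν zin u) + q (2^(2m) - 1)` with `q ≤ 4`. -/
theorem decodes_of_eq (f ν : ℕ) (u : List Bool) (hν : ν ≤ f) (q : ℕ) (hq : q ≤ 4) (v : ℕ)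
    (hv : v = canon (f + 7 + u.length) (2 ^ ν * zin u) + q * (2 ^ (2 * (f + 7 + u.length)) - 1)) :
    Decodes (lbits (2 * (f + 7 + u.length) + 2) v) u := by
  sorry

/-- A number below `2^(2m+2)` that is congruent to `canon m z` modulo `2^m+1` and modulo `2^m-1`. -/
theorem eq_canon_add (m z v : ℕ) (hm : 2 ≤ m) (hz : 1 ≤ z) (hz' : z < 2 ^ m)
    (hv : v < 2 ^ (2 * m + 2))
    (h1 : v ≡ canon m z [MOD 2 ^ m + 1]) (h2 : v ≡ canon m z [MOD 2 ^ m - 1]) :
    ∃ q, q ≤ 4 ∧ v = canon m z + q * (2 ^ (2 * m) - 1) := by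
  sorry

/-- `canon m z = 2 z` modulo `2^m + 1`. -/
theorem canon_mod_plus (m z : ℕ) (hz : 1 ≤ z) (hz' : z ≤ 2 ^ m) :
    canon m z ≡ 2 * z [MOD 2 ^ m + 1] := by
  sorry

/-- `canon m z = 0` modulo `2^m - 1`. -/
theorem canon_mod_minus (m z : ℕ) (hz : 1 ≤ z) (hz' : z ≤ 2 ^ m) :
    canon m z ≡ 0 [MOD 2 ^ m - 1] := by
  sorry

end Vale.Agent.P338.TM.M
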