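import Vale.Agent.P338.TM.Model3

/-!
# Machine independent mathematics of one fat transposition step: definitions

`stageL`, `lastL`, `fatL` : what the tapes hold (list level, exactly as in the specs of
`preMul`, `mulA`, `postMul`, `lastStage`).
`convW`, `fold4`, `stageN`, `lastN` : the same on the level of numbers.
-/

namespace Vale.Agent.P338.TM.M

open Vale.Agent.P338 Vale.Agent.P338.TM

/-- `t(t-1)/2`. -/
def tri (t : ℕ) : ℕ := t * (t - 1) / 2

/-- The exponent of the chirp of a transform of length `l`. -/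
def chirpE (N l t : ℕ) : ℕ := (N / l * tri t) % N

/-- The `j`-th piece of length `k` of a list. -/
def piece (k : ℕ) (L : List Bool) (j : ℕ) : List Bool := (L.drop (j * k)).take k

/-- Index of the `i`-th input of the transform that produces output number `p`
(`l` = length, `st` = stride; `p = (gi*l + k)*st + c`). -/
def inIdx (l st p i : ℕ) : ℕ := (p / (l * st) * l + i) * st + p % st

/-- The content of the product slot that belongs to output number `p`. -/
def convW (P : Par) (s : ℕ → ℕ) (l st : ℕ) (V : ℕ → ℕ) (p : ℕ) : ℕ :=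
  ∑ i ∈ Finset.range l,
    V (inIdx l st p i) * 2 ^ (s (inIdx l st p i) * P.g)
      * 2 ^ ((P.N - chirpE P.N l (2 * l + p / st % l - i)) * P.g)

/-- The sum of the four `L`-bit chunks. -/
def fold4 (L x : ℕ) : ℕ :=
  x % 2 ^ L + x / 2 ^ L % 2 ^ L + x / 2 ^ (2 * L) % 2 ^ L + x / 2 ^ (3 * L) % 2 ^ L

/-- One convolution stage on numbers. -/
def stageN (P : Par) (s : ℕ → ℕ) (l st : ℕ) (V : ℕ → ℕ) : ℕ → ℕ :=
  fun p => fold4 (2 * P.m) (convW P s l st V p)

/-- The last multiplication by phases on numbers. -/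
def lastN (P : Par) (s : ℕ → ℕ) (V : ℕ → ℕ) : ℕ → ℕ :=
  fun p => fold4 (2 * P.m) (V p * 2 ^ (s p * P.g))

/-- The first operand of a stage. -/
def opX (P : Par) (E1 E2 E3 iD iF R G : ℕ) (blk : ℕ → List Bool) : List Bool :=
  xOut P E1 E2 E3 blk ⟨0, iD, iF⟩ R G

/-- The second operand of a stage. -/
def opY (P : Par) (l s1 E2y : ℕ) : List Bool :=
  yOut P E2y s1 ⟨0, 0, 0⟩ (3 * l) ++ zs (4 * (P.N * P.w) - 3 * l * ((s1 + 1) * P.w))

/-- The product tape. -/
def prodL (P : Par) (u v : List Bool) : List Bool :=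
  lbits (2 * (4 * (P.N * P.w))) (lval u * lval v)

/-- The tape `Bk` after one convolution stage (`preMul`, `mulA`, `postMul`). -/
def stageL (P : Par) (E1 E2 E3 iD iF R G l s1 E2y : ℕ) (blk : ℕ → List Bool) : List Bool :=
  sum4 (P.N * (2 * P.m + 2))
    (exT P (piece P.w (prodL P (opX P E1 E2 E3 iD iF R G blk) (opY P l s1 E2y))) R G)

/-- The tape `Bk` after `lastStage`. -/
def lastL (P : Par) (E1 E2 E3 iD iF : ℕ) (blk : ℕ → List Bool) : List Bool :=
  sum4 (P.N * (2 * P.m + 2))
    (dmT P (fun n => slotX P (phAt P E1 E2 E3 ⟨0, iD, iF⟩ n) (blk n)) P.a)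

/-- The encoded matrix (entries in reversed order). -/
def B0 (P : Par) (y : ℕ → List Bool) : ℕ → List Bool := fun j => encBlock P.f (y (P.N - 1 - j))

/-- Closed forms of the phases of the four stages. -/
def ph1 (P : Par) (n : ℕ) : ℕ := tri (n + 1) % P.N
def ph2 (P : Par) (n : ℕ) : ℕ := (tri (n + 1) + P.b * tri (n / P.b + 1)) % P.N
def ph3 (P : Par) (n : ℕ) : ℕ :=
  (P.b * tri (n / P.b) + n / P.b * (n % P.b) + P.a * tri (n % P.b + 1)) % P.N
def ph4 (P : Par) (n : ℕ) : ℕ := (P.a * tri (n % P.b)) % P.N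

/-- The numbers held by the blocks. -/
def V0 (P : Par) (y : ℕ → List Bool) : ℕ → ℕ := fun j => lval (B0 P y j)
def V1 (P : Par) (y : ℕ → List Bool) : ℕ → ℕ := stageN P (ph1 P) P.N 1 (V0 P y)
def V2 (P : Par) (y : ℕ → List Bool) : ℕ → ℕ := stageN P (ph2 P) P.a P.b (V1 P y)
def V3 (P : Par) (y : ℕ → List Bool) : ℕ → ℕ := stageN P (ph3 P) P.b 1 (V2 P y)
def V4 (P : Par) (y : ℕ → List Bool) : ℕ → ℕ := lastN P (ph4 P) (V3 P y)

/-- The blocks after the stages. -/
def B1 (P : Par) (y : ℕ → List Bool) : ℕ → List Bool := fun p => lbits (2 * P.m + 2) (V1 P y p)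
def B2 (P : Par) (y : ℕ → List Bool) : ℕ → List Bool := fun p => lbits (2 * P.m + 2) (V2 P y p)
def B3 (P : Par) (y : ℕ → List Bool) : ℕ → List Bool := fun p => lbits (2 * P.m + 2) (V3 P y p)
def B4 (P : Par) (y : ℕ → List Bool) : ℕ → List Bool := fun p => lbits (2 * P.m + 2) (V4 P y p)

/-- The extra hypotheses of the mathematical part: powers of two, `H = N/2`, enough fill bits. -/
structure Good (P : Par) (α β : ℕ) : Prop where
  valid : P.Valid
  ha : P.a = 2 ^ α
  hb : P.b = 2 ^ β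
  hH : P.H = P.N / 2
  hf : α + β ≤ P.f

end Vale.Agent.P338.TM.M
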