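import Vale.Agent.P338.TM.M.List

/-! The four-stream addition folds every slot separately. -/

namespace Vale.Agent.P338.TM.M

open Vale.Agent.P338 Vale.Agent.P338.TM

theorem fold4_lt (L x : ℕ) : fold4 L x < 2 ^ (L + 2) := by
  have hp : 0 < 2 ^ L := by positivity
  have h1 := Nat.mod_lt x hp
  have h2 := Nat.mod_lt (x / 2 ^ L) hp
  have h3 := Nat.mod_lt (x / 2 ^ (2 * L)) hp
  have h4 := Nat.mod_lt (x / 2 ^ (3 * L)) hp
  have e : 2 ^ (L + 2) = 4 * 2 ^ L := by
    rw [pow_add]
    ring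
  unfold fold4
  rw [e]
  linarith

theorem lval_chunk (P : Par) (i : ℕ) (σ : List Bool) :
    lval (chunk P i σ) = lval σ / 2 ^ (i * (2 * P.m)) % 2 ^ (2 * P.m) := by
  unfold chunk
  exact lval_take_drop σ _ _

theorem chunk_length (P : Par) (i : ℕ) (hi : i < 4) (σ : List Bool) (hσ : σ.length = P.w) :
    (chunk P i σ).length = 2 * P.m := by
  simp only [chunk, List.length_take, List.length_drop, hσ, Par.w]
  interval_cases i <;> omega

theorem lval_chunk_pad (P : Par) (i : ℕ) (σ : List Bool) :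
    lval (chunk P i σ ++ [false, false]) = lval σ / 2 ^ (i * (2 * P.m)) % 2 ^ (2 * P.m) := by
  rw [lval_append, lval_chunk]
  simp [lval]

/-- General form: `K` slots `sl 0, ..., sl (K-1)` distributed to four streams and added. -/
theorem sum4_cat (P : Par) (sl : ℕ → List Bool) (hsl : ∀ t, (sl t).length = P.w) (K : ℕ) :
    sum4 (K * (2 * P.m + 2)) (fun i => cat (fun t => chunk P i (sl t) ++ [false, false]) 0 K) =
      cat (fun t => lbits (2 * P.m + 2) (fold4 (2 * P.m) (lval (sl t)))) 0 K := by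
  have hRlen : (cat (fun t => lbits (2 * P.m + 2) (fold4 (2 * P.m) (lval (sl t)))) 0 K).length
      = K * (2 * P.m + 2) := cat_length _ _ (fun j => lbits_length _ _) 0 K
  have hlen : ∀ i, i < 4 → ∀ t, (chunk P i (sl t) ++ [false, false]).length = 2 * P.m + 2 := by
    intro i hi t
    rw [List.length_append, chunk_length P i hi _ (hsl t)]
    rfl
  have hval : lval (cat (fun t => chunk P 0 (sl t) ++ [false, false]) 0 K)
      + lval (cat (fun t => chunk P 1 (sl t) ++ [false, false]) 0 K)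
      + lval (cat (fun t => chunk P 2 (sl t) ++ [false, false]) 0 K)
      + lval (cat (fun t => chunk P 3 (sl t) ++ [false, false]) 0 K)
      = lval (cat (fun t => lbits (2 * P.m + 2) (fold4 (2 * P.m) (lval (sl t)))) 0 K) := by
    rw [lval_cat _ _ (hlen 0 (by norm_num)), lval_cat _ _ (hlen 1 (by norm_num)),
      lval_cat _ _ (hlen 2 (by norm_num)), lval_cat _ _ (hlen 3 (by norm_num)),
      lval_cat _ _ (fun j => lbits_length _ _), ← Finset.sum_add_distrib,
      ← Finset.sum_add_distrib, ← Finset.sum_add_distrib]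
    refine Finset.sum_congr rfl fun t _ => ?_
    rw [lval_chunk_pad, lval_chunk_pad, lval_chunk_pad, lval_chunk_pad, lval_lbits,
      Nat.mod_eq_of_lt (fold4_lt _ _)]
    unfold fold4
    simp only [Nat.zero_mul, pow_zero, Nat.div_one, Nat.one_mul]
    ring
  unfold sum4
  rw [hval, ← hRlen, lbits_lval]

theorem dmT_eq_cat (P : Par) (sl : ℕ → List Bool) (R i : ℕ) :
    dmT P sl R i = cat (fun t => chunk P i (sl t) ++ [false, false]) 0 (R * P.b) :=
  cat_cat (fun t => chunk P i (sl t) ++ [false, false]) P.b R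

theorem exT_eq_cat (P : Par) (hb : 0 < P.b) (sl : ℕ → List Bool) (R G i : ℕ) (hR : 0 < R) :
    exT P sl R G i = cat (fun p => chunk P i
      (sl (p / (R * P.b) * (4 * (R * P.b)) + 2 * (R * P.b) + p % (R * P.b))) ++ [false, false])
      0 (G * (R * P.b)) := by
  have hQ : 0 < R * P.b := Nat.mul_pos hR hb
  rw [← cat_cat]
  unfold exT
  apply cat_congr
  intro gi _
  rw [dmT_eq_cat]
  apply cat_congr
  intro j hj
  have h1 : ((0 + gi) * (R * P.b) + (0 + j)) / (R * P.b) = 0 + gi := by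
    rw [Nat.mul_comm, Nat.mul_add_div hQ, Nat.zero_add j, Nat.div_eq_of_lt hj, Nat.add_zero]
  have h2 : ((0 + gi) * (R * P.b) + (0 + j)) % (R * P.b) = 0 + j := by
    rw [Nat.mul_comm, Nat.mul_add_mod, Nat.zero_add j, Nat.mod_eq_of_lt hj]
  simp only [h1, h2]

theorem sum4_dmT (P : Par) (sl : ℕ → List Bool) (hsl : ∀ t, (sl t).length = P.w) :
    sum4 (P.N * (2 * P.m + 2)) (dmT P sl P.a) =
      cat (fun t => lbits (2 * P.m + 2) (fold4 (2 * P.m) (lval (sl t)))) 0 P.N := by
  have h : dmT P sl P.a = fun i => cat (fun t => chunk P i (sl t) ++ [false, false]) 0 P.N := by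
    funext i
    exact dmT_eq_cat P sl P.a i
  rw [h]
  exact sum4_cat P sl hsl P.N

theorem sum4_exT (P : Par) (hb : 0 < P.b) (sl : ℕ → List Bool) (hsl : ∀ t, (sl t).length = P.w)
    (R G : ℕ) (hR : 0 < R) (hG : G * (R * P.b) = P.N) :
    sum4 (P.N * (2 * P.m + 2)) (exT P sl R G) =
      cat (fun p => lbits (2 * P.m + 2) (fold4 (2 * P.m)
        (lval (sl (p / (R * P.b) * (4 * (R * P.b)) + 2 * (R * P.b) + p % (R * P.b)))))) 0 P.N := by
  have h : exT P sl R G = fun i => cat (fun p => chunk P i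
      (sl (p / (R * P.b) * (4 * (R * P.b)) + 2 * (R * P.b) + p % (R * P.b))) ++ [false, false])
      0 P.N := by
    funext i
    rw [exT_eq_cat P hb sl R G i hR, hG]
  rw [h]
  exact sum4_cat P (fun p => sl (p / (R * P.b) * (4 * (R * P.b)) + 2 * (R * P.b) + p % (R * P.b)))
    (fun t => hsl _) P.N

end Vale.Agent.P338.TM.M
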