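import Vale.Agent.P338.TM.M.RingDefs
import Vale.Agent.P338.TM.M.Conv
import Vale.Agent.P338.TM.M.Fold

/-! From numbers to a ring in which `2^(2m) = 1`. -/

namespace Vale.Agent.P338.TM.M

open Vale.Agent.P338 Vale.Agent.P338.TM

variable {R : Type} [CommRing R]

/-- Folding does not change the class in a ring where `2^L = 1`. -/
theorem cast_fold4 (L x : ℕ) (hx : x < 2 ^ (4 * L)) (h2 : (2 : R) ^ L = 1) :
    ((fold4 L x : ℕ) : R) = (x : R) := by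
  sorry

theorem cast_convW (P : Par) (s : ℕ → ℕ) (l st : ℕ) (V : ℕ → ℕ) (p : ℕ) :
    ((convW P s l st V p : ℕ) : R) = stageR P ((2 : R) ^ P.g) s l st (fun j => (V j : R)) p := by
  sorry

theorem cast_stageN (P : Par) (hV : P.Valid) (h2 : (2 : R) ^ (2 * P.m) = 1) (s : ℕ → ℕ)
    (l st : ℕ) (V : ℕ → ℕ) (hl : l ≤ P.N) (hs : ∀ j, s j < P.N)
    (hVb : ∀ j, V j < 2 ^ (2 * P.m + 2)) (p : ℕ) :
    ((stageN P s l st V p : ℕ) : R) = stageR P ((2 : R) ^ P.g) s l st (fun j => (V j : R)) p := by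
  sorry

theorem cast_lastN (P : Par) (hV : P.Valid) (h2 : (2 : R) ^ (2 * P.m) = 1) (s : ℕ → ℕ)
    (V : ℕ → ℕ) (hs : ∀ j, s j < P.N) (hVb : ∀ j, V j < 2 ^ (2 * P.m + 2)) (p : ℕ) :
    ((lastN P s V p : ℕ) : R) = lastR ((2 : R) ^ P.g) s (fun j => (V j : R)) p := by
  sorry

theorem stageN_lt (P : Par) (s : ℕ → ℕ) (l st : ℕ) (V : ℕ → ℕ) (p : ℕ) :
    stageN P s l st V p < 2 ^ (2 * P.m + 2) := fold4_lt _ _

theorem lastN_lt (P : Par) (s : ℕ → ℕ) (V : ℕ → ℕ) (p : ℕ) :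
    lastN P s V p < 2 ^ (2 * P.m + 2) := fold4_lt _ _

theorem stageR_zero (P : Par) (ω : R) (s : ℕ → ℕ) (l st : ℕ) (U : ℕ → R) (hU : ∀ j, U j = 0)
    (p : ℕ) : stageR P ω s l st U p = 0 := by
  sorry

theorem ph_lt (P : Par) (hN : 0 < P.N) (n : ℕ) :
    ph1 P n < P.N ∧ ph2 P n < P.N ∧ ph3 P n < P.N ∧ ph4 P n < P.N :=
  ⟨Nat.mod_lt _ hN, Nat.mod_lt _ hN, Nat.mod_lt _ hN, Nat.mod_lt _ hN⟩

end Vale.Agent.P338.TM.M
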