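import Vale.Agent.P338.TM.M.RingDefs

/-! Orthogonality of the powers of a principal root of unity of order a power of two. -/

namespace Vale.Agent.P338.TM.M

variable {R : Type} [CommRing R]

/-- Orthogonality: `N = 2^ν`, `ω^(N/2) = -1`. -/
theorem orth (ν : ℕ) (ω : R) (hω : ω ^ (2 ^ ν / 2) = -1) (hν : 1 ≤ ν) (d : ℕ) (hd : 0 < d)
    (hd' : d < 2 ^ ν) : ∑ n ∈ Finset.range (2 ^ ν), ω ^ (n * d) = 0 := by
  sorry

end Vale.Agent.P338.TM.M
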