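import Vale.Agent.P338.TM.M.Ring1
import Vale.Agent.P338.TM.M.Ring1o

/-! Fourier inversion in Cooley-Tukey form. -/

namespace Vale.Agent.P338.TM.M

open Vale.Agent.P338 Vale.Agent.P338.TM

variable {R : Type} [CommRing R]

/-- `∑_j ω^(a j k2) ω^(j k1) ∑_r ω^(b r k1) x(r b + j) = ∑_n x(n) ω^(n (k1 + a k2))`. -/
theorem claim5a (P : Par) {α β : ℕ} (h : Good P α β) (ω : R) (hω : ω ^ P.N = 1) (Y : ℕ → R)
    (k1 k2 : ℕ) :
    ∑ j ∈ Finset.range P.b, zR P ω Y k1 j * ω ^ (k1 * j) * ω ^ (P.a * (j * k2)) =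
      ∑ n ∈ Finset.range P.N, xR P ω Y n * ω ^ (n * (k2 * P.a + k1)) := by
  sorry

/-- Fourier inversion. -/
theorem claim5b (P : Par) {α β : ℕ} (h : Good P α β) (ω : R) (hω : ω ^ (P.N / 2) = -1)
    (Y : ℕ → R) (K : ℕ) (hK : K < P.N) :
    ∑ n ∈ Finset.range P.N, xR P ω Y n * ω ^ (n * K) = (P.N : R) * Y K := by
  sorry

end Vale.Agent.P338.TM.M
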