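import Vale.Agent.P338.TM.M.Ring2
import Vale.Agent.P338.TM.M.Ring3

/-! The whole fat step in a ring. -/

namespace Vale.Agent.P338.TM.M

open Vale.Agent.P338 Vale.Agent.P338.TM

variable {R : Type} [CommRing R]

theorem ring_main (P : Par) {α β : ℕ} (h : Good P α β) (ω : R) (hω : ω ^ (P.N / 2) = -1)
    (Y : ℕ → R) (k1 k2 : ℕ) (h1 : k1 < P.a) (h2 : k2 < P.b) :
    lastR ω (ph4 P) (stageR P ω (ph3 P) P.b 1 (stageR P ω (ph2 P) P.a P.b
      (stageR P ω (ph1 P) P.N 1 (fun j => Y (P.N - 1 - j))))) (k1 * P.b + k2)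
      = (P.N : R) * Y (k2 * P.a + k1) := by
  have hN : ω ^ P.N = 1 := good_pow_N P h ω hω
  have hb : 0 < P.b := by have := h.valid.b2; omega
  have c3 := claim3 P h ω hN Y _ (fun k1 c hk hc => claim2 P h ω hN Y _
    (fun n hn => claim1 P h ω hN Y n hn) k1 c hk hc) k1 k2 h1 h2
  have hK : k2 * P.a + k1 < P.N := by
    have : (k2 + 1) * P.a ≤ P.b * P.a := Nat.mul_le_mul_right _ h2
    have e : P.N = P.b * P.a := by unfold Par.N; ring
    rw [e]
    nlinarith
  rw [claim5a P h ω hN Y k1 k2, claim5b P h ω hω Y _ hK] at c3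
  rw [← c3]
  unfold lastR ph4
  rw [pow_mod_of ω P.N hN]
  have : (k1 * P.b + k2) % P.b = k2 := by
    rw [Nat.mul_add_mod_of_lt h2]
  rw [this]

end Vale.Agent.P338.TM.M
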