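import Vale.Agent.P338.TM.M.Stage
import Vale.Agent.P338.TM.M.Mod
import Vale.Agent.P338.TM.M.Ring
import Vale.Agent.P338.TM.M.Decode

/-! The mathematics of one fat transposition step. -/

namespace Vale.Agent.P338.TM.M

open Vale.Agent.P338 Vale.Agent.P338.TM

theorem B0_length (P : Par) (hV : P.Valid) (y : ℕ → List Bool) (hy : ∀ j, (y j).length = P.e)
    (j : ℕ) : (B0 P y j).length = 2 * P.m + 2 := by
  unfold B0
  rw [encBlock_length, hy, hV.hf]

theorem V0_lt (P : Par) (hV : P.Valid) (y : ℕ → List Bool) (hy : ∀ j, (y j).length = P.e)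
    (j : ℕ) : V0 P y j < 2 ^ (2 * P.m + 2) := by
  have := lval_lt (B0 P y j)
  rwa [B0_length P hV y hy j] at this

theorem lval_lbits_of_lt (k z : ℕ) (h : z < 2 ^ k) : lval (lbits k z) = z := by
  rw [lval_lbits, Nat.mod_eq_of_lt h]

/-- The four stages on the list level. -/
theorem fat_stages (P : Par) {α β : ℕ} (h : Good P α β) (y : ℕ → List Bool)
    (hy : ∀ j, (y j).length = P.e) :
    stageL P 1 0 0 1 0 P.a 1 P.N 0 1 (B0 P y) = cat (B1 P y) 0 P.N ∧
    stageL P 1 P.b 0 1 P.b P.a 1 P.a (P.b - 1) P.b (B1 P y) = cat (B2 P y) 0 P.N ∧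
    stageL P P.a 0 1 P.a P.H 1 P.a P.b 0 P.a (B2 P y) = cat (B3 P y) 0 P.N ∧
    lastL P P.a 0 0 0 P.H (B3 P y) = cat (B4 P y) 0 P.N := by
  have hV := h.valid
  have ha := hV.a2
  have hb := hV.b2
  have hN : P.N = P.a * P.b := rfl
  have hNpos : 0 < P.N := good_N_pos P h
  have haN : P.a < P.N := by rw [hN]; nlinarith
  have hbN : P.b < P.N := by rw [hN]; nlinarith
  have h1N : 1 < P.N := by omega
  have hHN : P.H < P.N := hV.hH
  refine ⟨?_, ?_, ?_, ?_⟩
  · have e : P.N / P.N = 1 := Nat.div_self hNpos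
    have := stageL_eq P hV 1 0 0 1 0 P.a 1 P.N 0 (B0 P y) (B0_length P hV y hy) h1N hNpos hNpos
      (by omega) (by rw [hN]; ring) (by rw [hN]; ring)
    rw [e] at this
    rw [this]
    have e2 : phAt P 1 0 0 ⟨0, 1, 0⟩ = ph1 P := funext (phAt_one P h)
    rw [e2]
    rfl
  · have e : P.N / P.a = P.b := by rw [hN]; exact Nat.mul_div_cancel_left _ (by omega)
    have := stageL_eq P hV 1 P.b 0 1 P.b P.a 1 P.a (P.b - 1) (B1 P y)
      (fun j => lbits_length _ _) h1N hbN (by omega) (by omega)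
      (by rw [Nat.sub_add_cancel (by omega)]) (by rw [hN]; ring)
    rw [e] at this
    rw [this]
    have e2 : phAt P 1 P.b 0 ⟨0, 1, P.b⟩ = ph2 P := funext (phAt_two P h)
    have e3 : (fun j => lval (B1 P y j)) = V1 P y :=
      funext fun j => lval_lbits_of_lt _ _ (stageN_lt _ _ _ _ _ _)
    rw [e2, e3, Nat.sub_add_cancel (by omega)]
    rfl
  · have e : P.N / P.b = P.a := by rw [hN]; exact Nat.mul_div_cancel _ (by omega)
    have := stageL_eq P hV P.a 0 1 P.a P.H 1 P.a P.b 0 (B2 P y)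
      (fun j => lbits_length _ _) haN hHN (by omega) (by omega) (by ring) (by rw [hN]; ring)
    rw [e] at this
    rw [this]
    have e2 : phAt P P.a 0 1 ⟨0, P.a, P.H⟩ = ph3 P := funext (phAt_three P h)
    have e3 : (fun j => lval (B2 P y j)) = V2 P y :=
      funext fun j => lval_lbits_of_lt _ _ (stageN_lt _ _ _ _ _ _)
    rw [e2, e3]
    rfl
  · have := lastL_eq P hV P.a 0 0 0 P.H (B3 P y) (fun j => lbits_length _ _) hNpos hHN
    rw [this]
    have e2 : phAt P P.a 0 0 ⟨0, 0, P.H⟩ = ph4 P := funext (phAt_four P h)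
    have e3 : (fun j => lval (B3 P y j)) = V3 P y :=
      funext fun j => lval_lbits_of_lt _ _ (stageN_lt _ _ _ _ _ _)
    rw [e2, e3]
    rfl

/-- The class of `V4` in a ring where `2^(2m) = 1`. -/
theorem cast_V4 {R : Type} [CommRing R] (P : Par) {α β : ℕ} (h : Good P α β) (y : ℕ → List Bool)
    (hy : ∀ j, (y j).length = P.e) (h2 : (2 : R) ^ (2 * P.m) = 1) (p : ℕ) :
    ((V4 P y p : ℕ) : R) = lastR ((2 : R) ^ P.g) (ph4 P) (stageR P ((2 : R) ^ P.g) (ph3 P) P.b 1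
      (stageR P ((2 : R) ^ P.g) (ph2 P) P.a P.b (stageR P ((2 : R) ^ P.g) (ph1 P) P.N 1
        (fun j => ((lval (encBlock P.f (y (P.N - 1 - j))) : ℕ) : R))))) p := by
  have hV := h.valid
  have ha := hV.a2
  have hb := hV.b2
  have hN : P.N = P.a * P.b := rfl
  have hNpos : 0 < P.N := good_N_pos P h
  have haN : P.a ≤ P.N := by rw [hN]; nlinarith
  have hbN : P.b ≤ P.N := by rw [hN]; nlinarith
  have e1 : (fun j => ((V1 P y j : ℕ) : R)) = stageR P ((2 : R) ^ P.g) (ph1 P) P.N 1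
      (fun j => ((lval (encBlock P.f (y (P.N - 1 - j))) : ℕ) : R)) :=
    funext fun p => cast_stageN P hV h2 (ph1 P) P.N 1 (V0 P y) le_rfl
      (fun j => (ph_lt P hNpos j).1) (V0_lt P hV y hy) p
  have e2 : (fun j => ((V2 P y j : ℕ) : R)) = stageR P ((2 : R) ^ P.g) (ph2 P) P.a P.b
      (fun j => ((V1 P y j : ℕ) : R)) :=
    funext fun p => cast_stageN P hV h2 (ph2 P) P.a P.b (V1 P y) haN
      (fun j => (ph_lt P hNpos j).2.1) (fun j => stageN_lt _ _ _ _ _ _) p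
  have e3 : (fun j => ((V3 P y j : ℕ) : R)) = stageR P ((2 : R) ^ P.g) (ph3 P) P.b 1
      (fun j => ((V2 P y j : ℕ) : R)) :=
    funext fun p => cast_stageN P hV h2 (ph3 P) P.b 1 (V2 P y) hbN
      (fun j => (ph_lt P hNpos j).2.2.1) (fun j => stageN_lt _ _ _ _ _ _) p
  have e4 := cast_lastN (R := R) P hV h2 (ph4 P) (V3 P y) (fun j => (ph_lt P hNpos j).2.2.2)
    (fun j => stageN_lt _ _ _ _ _ _) p
  rw [← e1, ← e2, ← e3]
  exact e4

/-- The result decodes to the transposed matrix. -/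
theorem fat_decodes (P : Par) {α β : ℕ} (h : Good P α β) (y : ℕ → List Bool)
    (hy : ∀ j, (y j).length = P.e) (k1 k2 : ℕ) (h1 : k1 < P.a) (h2 : k2 < P.b) :
    Decodes (B4 P y (k1 * P.b + k2)) (y (k2 * P.a + k1)) := by
  sorry

/-- Summary for the machine level. -/
theorem fat_math (P : Par) {α β : ℕ} (h : Good P α β) (y : ℕ → List Bool)
    (hy : ∀ j, (y j).length = P.e) :
    (stageL P 1 0 0 1 0 P.a 1 P.N 0 1 (B0 P y) = cat (B1 P y) 0 P.N ∧
    stageL P 1 P.b 0 1 P.b P.a 1 P.a (P.b - 1) P.b (B1 P y) = cat (B2 P y) 0 P.N ∧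
    stageL P P.a 0 1 P.a P.H 1 P.a P.b 0 P.a (B2 P y) = cat (B3 P y) 0 P.N ∧
    lastL P P.a 0 0 0 P.H (B3 P y) = cat (B4 P y) 0 P.N) ∧
    (∀ j, (B0 P y j).length = 2 * P.m + 2 ∧ (B1 P y j).length = 2 * P.m + 2 ∧
      (B2 P y j).length = 2 * P.m + 2 ∧ (B3 P y j).length = 2 * P.m + 2 ∧
      (B4 P y j).length = 2 * P.m + 2) ∧
    ∀ k1 k2, k1 < P.a → k2 < P.b → Decodes (B4 P y (k1 * P.b + k2)) (y (k2 * P.a + k1)) :=
  ⟨fat_stages P h y hy,
   fun j => ⟨B0_length P h.valid y hy j, lbits_length _ _, lbits_length _ _, lbits_length _ _,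
     lbits_length _ _⟩,
   fun k1 k2 h1 h2 => fat_decodes P h y hy k1 k2 h1 h2⟩

end Vale.Agent.P338.TM.M
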