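import Vale.Agent.P338.TM.M.Defs

/-! Kronecker substitution: the slots of a product are the coefficients of the convolution. -/

namespace Vale.Agent.P338.TM.M

/-- Coefficient `t` of the product of the two power series with coefficients `x`, `y`. -/
def conv (x y : ℕ → ℕ) (t : ℕ) : ℕ := ∑ i ∈ Finset.range (t + 1), x i * y (t - i)

/-- The number with the slots `x 0, ..., x (K-1)` of width `w`. -/
def pack (w K : ℕ) (x : ℕ → ℕ) : ℕ := ∑ i ∈ Finset.range K, x i * 2 ^ (w * i)

theorem pack_mul (w K : ℕ) (x y : ℕ → ℕ) (hx : ∀ i, K ≤ i → x i = 0) (hy : ∀ i, K ≤ i → y i = 0) :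
    pack w K x * pack w K y = pack w (2 * K) (conv x y) := by
  unfold pack conv
  have h1 : ∑ t ∈ Finset.range (2 * K), (∑ i ∈ Finset.range (t + 1), x i * y (t - i)) * 2 ^ (w * t)
      = ∑ t ∈ Finset.range (2 * K), ∑ i ∈ Finset.range (t + 1),
          x i * y (t - i) * 2 ^ (w * (i + (t - i))) := by
    refine Finset.sum_congr rfl (fun t _ => ?_)
    rw [Finset.sum_mul]
    refine Finset.sum_congr rfl (fun i hi => ?_)
    have : i + (t - i) = t := by
      have := Finset.mem_range.mp hi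
      omega
    rw [this]
  rw [h1, Finset.sum_range_diag_flip (2 * K) (fun i j => x i * y j * 2 ^ (w * (i + j)))]
  have h2 : ∑ i ∈ Finset.range (2 * K), ∑ j ∈ Finset.range (2 * K - i), x i * y j * 2 ^ (w * (i + j))
      = ∑ i ∈ Finset.range K, ∑ j ∈ Finset.range (2 * K - i), x i * y j * 2 ^ (w * (i + j)) := by
    refine Finset.eventually_constant_sum (fun i hi => ?_) (by omega)
    refine Finset.sum_eq_zero (fun j _ => ?_)
    rw [hx i hi]
    simp
  rw [h2, Finset.sum_mul_sum]
  refine Finset.sum_congr rfl (fun i hi => ?_)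
  have hi' := Finset.mem_range.mp hi
  have h3 : ∑ j ∈ Finset.range (2 * K - i), x i * y j * 2 ^ (w * (i + j))
      = ∑ j ∈ Finset.range K, x i * y j * 2 ^ (w * (i + j)) := by
    refine Finset.eventually_constant_sum (fun j hj => ?_) (by omega)
    rw [hy j hj]
    simp
  rw [h3]
  refine Finset.sum_congr rfl (fun j _ => ?_)
  rw [Nat.mul_add, pow_add]
  ring

theorem pack_succ (w K : ℕ) (c : ℕ → ℕ) : pack w (K + 1) c = pack w K c + c K * 2 ^ (w * K) := by
  unfold pack
  rw [Finset.sum_range_succ]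

theorem pack_lt (w K : ℕ) (c : ℕ → ℕ) (hc : ∀ t, c t < 2 ^ w) : pack w K c < 2 ^ (w * K) := by
  induction K with
  | zero => simp [pack]
  | succ K ih =>
    rw [pack_succ]
    have h1 : c K + 1 ≤ 2 ^ w := hc K
    calc pack w K c + c K * 2 ^ (w * K) < 2 ^ (w * K) + c K * 2 ^ (w * K) :=
          Nat.add_lt_add_right ih _
      _ = (c K + 1) * 2 ^ (w * K) := by ring
      _ ≤ 2 ^ w * 2 ^ (w * K) := Nat.mul_le_mul_right _ h1
      _ = 2 ^ (w * (K + 1)) := by rw [← pow_add]; congr 1; ring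

theorem pack_slot (w K : ℕ) (c : ℕ → ℕ) (hc : ∀ t, c t < 2 ^ w) (t : ℕ) (ht : t < K) :
    pack w K c / 2 ^ (w * t) % 2 ^ w = c t := by
  have key : ∀ K, t < K → ∃ R, pack w K c = pack w t c + 2 ^ (w * t) * (c t + 2 ^ w * R) := by
    intro K
    induction K with
    | zero => intro h; omega
    | succ K ih =>
      intro h
      by_cases hK : t = K
      · subst hK
        refine ⟨0, ?_⟩
        rw [pack_succ]
        ring
      · obtain ⟨R, hR⟩ := ih (by omega)
        obtain ⟨e, he⟩ : ∃ e, K = t + 1 + e := ⟨K - (t + 1), by omega⟩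
        refine ⟨R + c K * 2 ^ (w * e), ?_⟩
        rw [pack_succ, hR]
        have : (2 : ℕ) ^ (w * K) = 2 ^ (w * t) * (2 ^ w * 2 ^ (w * e)) := by
          rw [← pow_add, ← pow_add, he]
          congr 1
          ring
        rw [this]
        ring
  obtain ⟨R, hR⟩ := key K ht
  rw [hR, Nat.add_mul_div_left _ _ (by positivity), Nat.div_eq_of_lt (pack_lt w t c hc),
    Nat.zero_add, Nat.add_mul_mod_self_left, Nat.mod_eq_of_lt (hc t)]

/-- The slots of the product. -/
theorem kron (w K : ℕ) (x y : ℕ → ℕ) (hx : ∀ i, K ≤ i → x i = 0) (hy : ∀ i, K ≤ i → y i = 0)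
    (hb : ∀ t, conv x y t < 2 ^ w) (t : ℕ) (ht : t < 2 * K) :
    pack w K x * pack w K y / 2 ^ (w * t) % 2 ^ w = conv x y t := by
  rw [pack_mul w K x y hx hy]
  exact pack_slot w (2 * K) _ hb t ht

end Vale.Agent.P338.TM.M
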