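import Vale.Agent.P338.TM.M.Defs

/-! Basic facts on `lval`, `lbits`, `cat`, `piece`. -/

namespace Vale.Agent.P338.TM.M

open Vale.Agent.P338 Vale.Agent.P338.TM

theorem lval_append (l1 l2 : List Bool) : lval (l1 ++ l2) = lval l1 + 2 ^ l1.length * lval l2 := by
  induction l1 with
  | nil => simp [lval]
  | cons b t ih =>
    simp only [List.cons_append, lval, ih, List.length_cons, pow_succ]
    ring

theorem lval_zs (k : ℕ) : lval (zs k) = 0 := by
  induction k with
  | zero => simp [zs, lval]
  | succ k ih =>
    have h : zs (k + 1) = false :: zs k := by simp [zs, List.replicate_succ]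
    rw [h, lval, ih]
    simp

theorem zs_length (k : ℕ) : (zs k).length = k := by
  simp [zs]

theorem lval_lt (l : List Bool) : lval l < 2 ^ l.length := by
  induction l with
  | nil => simp [lval]
  | cons b t ih =>
    have hb : b.toNat ≤ 1 := Bool.toNat_le b
    simp only [lval, List.length_cons, pow_succ]
    omega

theorem lbits_length (k z : ℕ) : (lbits k z).length = k := by
  simp [lbits]

theorem lbits_succ (k z : ℕ) : lbits (k + 1) z = lbits k z ++ [z.testBit k] := by
  simp [lbits, List.range_succ]

theorem lbits_succ' (k z : ℕ) : lbits (k + 1) z = z.testBit 0 :: lbits k (z / 2) := by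
  simp only [lbits, List.range_succ_eq_map, List.map_cons, List.map_map]
  congr 1
  apply List.map_congr_left
  intro i _
  simp [Nat.testBit_succ]

theorem lval_lbits (k z : ℕ) : lval (lbits k z) = z % 2 ^ k := by
  induction k with
  | zero => simp [lbits, lval, Nat.mod_one]
  | succ k ih =>
    rw [lbits_succ, lval_append, ih, lbits_length, Nat.mod_pow_succ]
    simp [lval, Nat.toNat_testBit]

theorem lbits_lval (l : List Bool) : lbits l.length (lval l) = l := by
  induction l with
  | nil => simp [lbits]
  | cons b t ih =>
    have hb : b.toNat ≤ 1 := Bool.toNat_le b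
    have h2 : (b.toNat + 2 * lval t) / 2 = lval t := by omega
    have h1 : (b.toNat + 2 * lval t).testBit 0 = b := by
      cases b <;> simp [Nat.testBit_zero, Nat.add_mod]
    rw [List.length_cons, lbits_succ', lval, h1, h2, ih]

theorem lbits_congr (k z z' : ℕ) (h : z % 2 ^ k = z' % 2 ^ k) : lbits k z = lbits k z' := by
  unfold lbits
  apply List.map_congr_left
  intro i hi
  have hi' : i < k := List.mem_range.mp hi
  have h1 := Nat.testBit_mod_two_pow z k i
  have h2 := Nat.testBit_mod_two_pow z' k i
  rw [h] at h1
  rw [h1] at h2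
  simpa [hi'] using h2

theorem cat_succ_aux (f : ℕ → List Bool) (i k : ℕ) :
    cat f i (k + 1) = cat f i k ++ f (i + k) := by
  simp [cat, List.range_succ, List.flatMap_append]

theorem cat_length (f : ℕ → List Bool) (w : ℕ) (hf : ∀ j, (f j).length = w) (i k : ℕ) :
    (cat f i k).length = k * w := by
  induction k with
  | zero => simp [cat]
  | succ k ih => rw [cat_succ_aux, List.length_append, ih, hf, Nat.succ_mul]

theorem cat_succ (f : ℕ → List Bool) (i k : ℕ) : cat f i (k + 1) = cat f i k ++ f (i + k) :=
  cat_succ_aux f i k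

theorem cat_add (f : ℕ → List Bool) (i k l : ℕ) : cat f i (k + l) = cat f i k ++ cat f (i + k) l := by
  induction l with
  | zero => simp [cat]
  | succ l ih => rw [← Nat.add_assoc, cat_succ, ih, cat_succ, List.append_assoc, Nat.add_assoc]

theorem cat_congr (f g : ℕ → List Bool) (i k : ℕ) (h : ∀ j, j < k → f (i + j) = g (i + j)) :
    cat f i k = cat g i k := by
  induction k with
  | zero => simp [cat]
  | succ k ih =>
    rw [cat_succ, cat_succ, ih fun j hj => h j (Nat.lt_succ_of_lt hj), h k (Nat.lt_succ_self k)]

theorem cat_shift (f : ℕ → List Bool) (c i k : ℕ) :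
    cat (fun j => f (c + j)) i k = cat f (c + i) k := by
  simp only [cat, Nat.add_assoc]

/-- A concatenation of `k` concatenations of `r` pieces. -/
theorem cat_cat (f : ℕ → List Bool) (r k : ℕ) :
    cat (fun i => cat (fun j => f (i * r + j)) 0 r) 0 k = cat f 0 (k * r) := by
  induction k with
  | zero => simp [cat]
  | succ k ih =>
    rw [cat_succ, ih, Nat.succ_mul, cat_add, Nat.zero_add, Nat.zero_add, cat_shift, Nat.add_zero]

theorem zs_eq_cat (w k : ℕ) : zs (k * w) = cat (fun _ => zs w) 0 k := by
  induction k with
  | zero => simp [cat, zs]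
  | succ k ih =>
    rw [cat_succ, ← ih, Nat.succ_mul]
    simp only [zs, List.replicate_add]

theorem lval_cat (f : ℕ → List Bool) (w : ℕ) (hf : ∀ j, (f j).length = w) (i k : ℕ) :
    lval (cat f i k) = ∑ j ∈ Finset.range k, lval (f (i + j)) * 2 ^ (w * j) := by
  induction k with
  | zero => simp [cat, lval]
  | succ k ih =>
    rw [cat_succ, lval_append, ih, cat_length f w hf, Finset.sum_range_succ, Nat.mul_comm k w,
      Nat.mul_comm (2 ^ (w * k))]

theorem piece_cat (f : ℕ → List Bool) (w : ℕ) (hf : ∀ j, (f j).length = w) (k j : ℕ) (hj : j < k) :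
    piece w (cat f 0 k) j = f j := by
  obtain ⟨r, rfl⟩ : ∃ r, k = j + 1 + r := ⟨k - (j + 1), by omega⟩
  rw [cat_add, cat_succ, Nat.zero_add, List.append_assoc]
  unfold piece
  rw [List.drop_left' (cat_length f w hf 0 j), List.take_left' (hf j)]

theorem piece_length (w : ℕ) (L : List Bool) (j : ℕ) (h : (j + 1) * w ≤ L.length) :
    (piece w L j).length = w := by
  rw [Nat.succ_mul] at h
  simp only [piece, List.length_take, List.length_drop]
  omega

theorem lval_drop (i : ℕ) (L : List Bool) : lval (L.drop i) = lval L / 2 ^ i := by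
  induction i generalizing L with
  | zero => simp
  | succ i ih =>
    cases L with
    | nil => simp [lval]
    | cons b t =>
      have hb : b.toNat ≤ 1 := Bool.toNat_le b
      have h2 : (b.toNat + 2 * lval t) / 2 = lval t := by omega
      rw [List.drop_succ_cons, ih, lval, pow_succ', ← Nat.div_div_eq_div_mul, h2]

theorem lval_take (k : ℕ) (L : List Bool) : lval (L.take k) = lval L % 2 ^ k := by
  induction k generalizing L with
  | zero => simp [lval, Nat.mod_one]
  | succ k ih =>
    cases L with
    | nil => simp [lval]
    | cons b t =>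
      have hb : b.toNat ≤ 1 := Bool.toNat_le b
      have h2 : (b.toNat + 2 * lval t) / 2 = lval t := by omega
      have h1 : (b.toNat + 2 * lval t) % 2 = b.toNat := by omega
      rw [List.take_succ_cons, lval, ih, lval, pow_succ', Nat.mod_mul, h1, h2]

theorem lval_take_drop (L : List Bool) (i k : ℕ) :
    lval ((L.drop i).take k) = lval L / 2 ^ i % 2 ^ k := by
  rw [lval_take, lval_drop]

theorem piece_lbits (w K z t : ℕ) (ht : t < K) :
    piece w (lbits (K * w) z) t = lbits w (z / 2 ^ (w * t)) := by
  have hlen : (t + 1) * w ≤ (lbits (K * w) z).length := by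
    rw [lbits_length]
    exact Nat.mul_le_mul_right w ht
  apply List.ext_getElem
  · rw [piece_length w _ t hlen, lbits_length]
  · intro i h1 h2
    simp only [piece, lbits, List.getElem_take, List.getElem_drop, List.getElem_map,
      List.getElem_range, Nat.testBit_div_two_pow, Nat.mul_comm w t, Nat.add_comm i]

theorem cat_piece_take (w K : ℕ) (L : List Bool) : cat (piece w L) 0 K = L.take (K * w) := by
  induction K with
  | zero => simp [cat]
  | succ K ih =>
    rw [cat_succ, ih, Nat.succ_mul, List.take_add, Nat.zero_add]
    rfl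

theorem cat_piece (w K : ℕ) (L : List Bool) (h : L.length = K * w) : cat (piece w L) 0 K = L := by
  rw [cat_piece_take, ← h, List.take_length]

end Vale.Agent.P338.TM.M
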