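import Vale.Agent.P338.TM.M.Defs
import Vale.Agent.P338.TM.MathPhase

/-! Closed forms of the phase registers. -/

namespace Vale.Agent.P338.TM.M

open Vale.Agent.P338 Vale.Agent.P338.TM

theorem tri_eq_choose (t : ℕ) : tri t = t.choose 2 := by
  rw [tri, Nat.choose_two_right]

theorem tri_succ (t : ℕ) : tri (t + 1) = tri t + t := by
  rw [tri_eq_choose, tri_eq_choose, mp_choose_succ, add_comm]

/-- The chirp register. -/
theorem yrows_S (N E t : ℕ) : ((⟨0, 0, 0⟩ : Ph).yrows N E t).S = (E * tri t) % N ∧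
    ((⟨0, 0, 0⟩ : Ph).yrows N E t).F = (E * t) % N := by
  obtain ⟨h1, h2⟩ := mp_chirp_both N E t
  rw [tri_eq_choose]
  have k1 : ((⟨0, 0, 0⟩ : Ph).yrows N E t).S % N = ((⟨0, 0, 0⟩ : Ph).yrows N E t).S := by
    cases t with
    | zero => simp [Ph.yrows]
    | succ t =>
      rw [mp_yrows_succ]
      exact Nat.mod_mod _ _
  have k2 : ((⟨0, 0, 0⟩ : Ph).yrows N E t).F % N = ((⟨0, 0, 0⟩ : Ph).yrows N E t).F := by
    cases t with
    | zero => simp [Ph.yrows]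
    | succ t =>
      rw [mp_yrows_succ]
      exact Nat.mod_mod _ _
  exact ⟨k1.symm.trans h1, k2.symm.trans h2⟩

theorem phAt_lt (P : Par) (hN : 0 < P.N) (E1 E2 E3 : ℕ) (p : Ph) (hp : p.lt P.N) (n : ℕ) :
    phAt P E1 E2 E3 p n < P.N :=
  mp_blks_S_lt _ hN _ _ (mp_rows_S_lt _ hN _ _ _ _ _ hp.1 _) _

/-- Starting `i` rows later. -/
theorem phAt_rows (P : Par) (hb : 0 < P.b) (E1 E2 E3 : ℕ) (p : Ph) (i n : ℕ) :
    phAt P E1 E2 E3 (p.rows P.N P.b E1 E2 E3 i) n = phAt P E1 E2 E3 p (i * P.b + n) := by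
  have h1 : (i * P.b + n) / P.b = n / P.b + i := by
    rw [add_comm, Nat.add_mul_div_right _ _ hb]
  have h2 : (i * P.b + n) % P.b = n % P.b := by
    rw [add_comm, Nat.add_mul_mod_self_right]
  unfold phAt
  rw [h1, h2]
  simp only [Ph.rows, Function.iterate_add_apply]

theorem Good.N_pos {P : Par} {α β : ℕ} (h : Good P α β) : 0 < P.N := by
  have h1 := h.valid.a2
  have h2 := h.valid.b2
  unfold Par.N
  positivity

theorem Good.b_pos {P : Par} {α β : ℕ} (h : Good P α β) : 0 < P.b := by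
  have h2 := h.valid.b2
  omega

theorem Good.two_dvd_b {P : Par} {α β : ℕ} (h : Good P α β) : 2 ∣ P.b := by
  have h2 := h.valid.b2
  have hb := h.hb
  cases β with
  | zero =>
    rw [pow_zero] at hb
    omega
  | succ β =>
    rw [hb, pow_succ]
    exact Dvd.intro_left _ rfl

theorem Good.two_H {P : Par} {α β : ℕ} (h : Good P α β) : 2 * P.H = P.a * P.b := by
  obtain ⟨c, hc⟩ := h.two_dvd_b
  have hH := h.hH
  have e : P.N = 2 * (P.a * c) := by
    unfold Par.N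
    rw [hc]
    ring
  rw [e, Nat.mul_div_cancel_left _ (by norm_num : 0 < 2)] at hH
  rw [hH, hc]
  ring

theorem eq_mod_of_modEq {N x y : ℕ} (hx : x < N) (h : x ≡ y [MOD N]) : x = y % N := by
  have := h
  unfold Nat.ModEq at this
  rwa [Nat.mod_eq_of_lt hx] at this

theorem phAt_one (P : Par) {α β : ℕ} (h : Good P α β) (n : ℕ) :
    phAt P 1 0 0 ⟨0, 1, 0⟩ n = ph1 P n := by
  unfold ph1
  rw [tri_eq_choose]
  exact eq_mod_of_modEq (mp_phAt_lt P h.N_pos _ _ _ _ _ _) (mp_ph1 P h.b_pos n)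

theorem phAt_two (P : Par) {α β : ℕ} (h : Good P α β) (n : ℕ) :
    phAt P 1 P.b 0 ⟨0, 1, P.b⟩ n = ph2 P n := by
  unfold ph2
  rw [tri_eq_choose, tri_eq_choose]
  exact eq_mod_of_modEq (mp_phAt_lt P h.N_pos _ _ _ _ _ _) (mp_ph2 P h.b_pos n)

theorem phAt_three (P : Par) {α β : ℕ} (h : Good P α β) (n : ℕ) :
    phAt P P.a 0 1 ⟨0, P.a, P.H⟩ n = ph3 P n := by
  unfold ph3
  rw [tri_eq_choose, tri_eq_choose]
  exact eq_mod_of_modEq (mp_phAt_lt P h.N_pos _ _ _ _ _ _)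
    (mp_ph3 P h.b_pos h.two_dvd_b h.two_H n)

theorem phAt_four (P : Par) {α β : ℕ} (h : Good P α β) (n : ℕ) :
    phAt P P.a 0 0 ⟨0, 0, P.H⟩ n = ph4 P n := by
  unfold ph4
  rw [tri_eq_choose]
  exact eq_mod_of_modEq (mp_phAt_lt P h.N_pos _ _ _ _ _ _)
    (mp_ph4 P h.b_pos h.two_dvd_b h.two_H n)

end Vale.Agent.P338.TM.M
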