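import Vale.Agent.P338.TM.M.RingDefs

/-! Tools: powers of a root of unity, Bluestein's identity. -/

namespace Vale.Agent.P338.TM.M

open Vale.Agent.P338 Vale.Agent.P338.TM

variable {R : Type} [CommRing R]

theorem pow_mod_of (ω : R) (N : ℕ) (h : ω ^ N = 1) (x : ℕ) : ω ^ (x % N) = ω ^ x := by
  sorry

theorem pow_eq_of_modEq (ω : R) (N : ℕ) (h : ω ^ N = 1) {x y : ℕ} (hxy : x ≡ y [MOD N]) :
    ω ^ x = ω ^ y := by
  sorry

/-- `ω^(N - x mod N)` is the inverse of `ω^x`. -/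
theorem pow_sub_mod_mul (ω : R) (N : ℕ) (hN : 0 < N) (h : ω ^ N = 1) (x : ℕ) :
    ω ^ (N - x % N) * ω ^ x = 1 := by
  sorry

/-- The arithmetic behind Bluestein's trick. -/
theorem tri_bluestein (l k i : ℕ) (hi : i < l) :
    tri (2 * l + k - i) + i * k = tri k + tri (i + 1) + l * (2 * k + 2 * l - 1 - 2 * i) := by
  sorry

/-- Bluestein: a transform of length `l` (`l ∣ N`) as a convolution with the chirp. -/
theorem bluestein (P : Par) (ω : R) (hN : 0 < P.N) (hω : ω ^ P.N = 1) (l : ℕ) (hl : l ∣ P.N)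
    (f : ℕ → R) (k : ℕ) :
    (∑ i ∈ Finset.range l, f i * ω ^ (P.N / l * tri (i + 1))
        * ω ^ (P.N - chirpE P.N l (2 * l + k - i))) * ω ^ (P.N / l * tri k) =
      ∑ i ∈ Finset.range l, f i * ω ^ (P.N / l * (i * k)) := by
  sorry

theorem good_N_pos (P : Par) {α β : ℕ} (h : Good P α β) : 0 < P.N := by
  sorry

theorem good_N_eq (P : Par) {α β : ℕ} (h : Good P α β) : P.N = 2 ^ (α + β) := by
  sorry

theorem good_pow_N (P : Par) {α β : ℕ} (h : Good P α β) (ω : R) (hω : ω ^ (P.N / 2) = -1) :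
    ω ^ P.N = 1 := by
  sorry

end Vale.Agent.P338.TM.M
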