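import Vale.Agent.P338.TM.M.Ring1

/-! One of the three stages in a ring. -/

namespace Vale.Agent.P338.TM.M

open Vale.Agent.P338 Vale.Agent.P338.TM

variable {R : Type} [CommRing R]

/-- Stage 2. -/
theorem claim2 (P : Par) {α β : ℕ} (h : Good P α β) (ω : R) (hω : ω ^ P.N = 1) (Y : ℕ → R)
    (U1 : ℕ → R) (hU : ∀ n, n < P.N → U1 n * ω ^ tri (n + 1) = xR P ω Y n)
    (k1 c : ℕ) (h1 : k1 < P.a) (hc : c < P.b) :
    stageR P ω (ph2 P) P.a P.b U1 (k1 * P.b + c) * ω ^ (P.b * tri k1) = zR P ω Y k1 c := by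
  sorry

end Vale.Agent.P338.TM.M
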