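import Vale.Agent.P338.TM.M.Ring1

/-! One of the three stages in a ring. -/

namespace Vale.Agent.P338.TM.M

open Vale.Agent.P338 Vale.Agent.P338.TM

variable {R : Type} [CommRing R]

/-- Stage 3. -/
theorem claim3 (P : Par) {α β : ℕ} (h : Good P α β) (ω : R) (hω : ω ^ P.N = 1) (Y : ℕ → R)
    (U2 : ℕ → R)
    (hU : ∀ k1 c, k1 < P.a → c < P.b → U2 (k1 * P.b + c) * ω ^ (P.b * tri k1) = zR P ω Y k1 c)
    (k1 k2 : ℕ) (h1 : k1 < P.a) (h2 : k2 < P.b) :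
    stageR P ω (ph3 P) P.b 1 U2 (k1 * P.b + k2) * ω ^ (P.a * tri k2) =
      ∑ j ∈ Finset.range P.b, zR P ω Y k1 j * ω ^ (k1 * j) * ω ^ (P.a * (j * k2)) := by
  sorry

end Vale.Agent.P338.TM.M
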