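import Vale.Agent.P338.TM.M.Ring1

/-! One of the three stages in a ring. -/

namespace Vale.Agent.P338.TM.M

open Vale.Agent.P338 Vale.Agent.P338.TM

variable {R : Type} [CommRing R]

/-- Stage 1: `U1(n) ω^(tri(n+1)) = x(n)`. -/
theorem claim1 (P : Par) {α β : ℕ} (h : Good P α β) (ω : R) (hω : ω ^ P.N = 1) (Y : ℕ → R)
    (n : ℕ) (hn : n < P.N) :
    stageR P ω (ph1 P) P.N 1 (fun j => Y (P.N - 1 - j)) n * ω ^ tri (n + 1) = xR P ω Y n := by
  sorry

end Vale.Agent.P338.TM.M
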