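import Vale.Agent.P338.TM.M.Defs

/-! The stages in a commutative ring in which `ω` is a principal `N`-th root of unity. -/

namespace Vale.Agent.P338.TM.M

open Vale.Agent.P338 Vale.Agent.P338.TM

variable {R : Type} [CommRing R]

/-- One convolution stage in a ring. -/
def stageR (P : Par) (ω : R) (s : ℕ → ℕ) (l st : ℕ) (U : ℕ → R) (p : ℕ) : R :=
  ∑ i ∈ Finset.range l, U (inIdx l st p i) * ω ^ (s (inIdx l st p i))
    * ω ^ (P.N - chirpE P.N l (2 * l + p / st % l - i))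

/-- The last multiplication by phases in a ring. -/
def lastR (ω : R) (s : ℕ → ℕ) (U : ℕ → R) (p : ℕ) : R := U p * ω ^ (s p)

/-- The transform `x(n) = ∑_k Y(k) ω^(-nk)`. -/
def xR (P : Par) (ω : R) (Y : ℕ → R) (n : ℕ) : R :=
  ∑ k ∈ Finset.range P.N, Y k * ω ^ ((P.N - 1) * (n * k))

/-- The transforms of the columns: `z(k1,c) = ∑_r x(r b + c) ω^(b r k1)`. -/
def zR (P : Par) (ω : R) (Y : ℕ → R) (k1 c : ℕ) : R :=
  ∑ r ∈ Finset.range P.a, xR P ω Y (r * P.b + c) * ω ^ (P.b * (r * k1))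

end Vale.Agent.P338.TM.M
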