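import Vale.Agent.P338.TM.M.List
import Vale.Agent.P338.TM.M.Kron
import Vale.Agent.P338.TM.M.Phase

/-! The two operands of a stage as packed numbers. -/

namespace Vale.Agent.P338.TM.M

open Vale.Agent.P338 Vale.Agent.P338.TM

theorem slots_aux_g (P : Par) (hV : P.Valid) (S : ℕ) (hS : S ≤ P.N) :
    S * P.g + (P.N - S) * P.g = 2 * P.m := by
  rw [← Nat.add_mul, hV.hm]
  congr 1
  have : P.a * P.b = P.N := rfl
  omega

theorem slotX_length (P : Par) (hV : P.Valid) (S : ℕ) (hS : S ≤ P.N) (blk : List Bool)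
    (hb : blk.length = 2 * P.m + 2) : (slotX P S blk).length = P.w := by
  have h1 := slots_aux_g P hV S hS
  simp only [slotX, List.length_append, zs_length, hb, Par.w]
  omega

theorem lval_slotX (P : Par) (S : ℕ) (blk : List Bool) :
    lval (slotX P S blk) = lval blk * 2 ^ (S * P.g) := by
  simp only [slotX, lval_append, lval_zs, zs_length]
  ring

theorem slotY_length (P : Par) (hV : P.Valid) (S : ℕ) (hS : S ≤ P.N) :
    (slotY P S).length = P.w := by
  have h1 := slots_aux_g P hV S hS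
  simp only [slotY, List.length_append, List.length_cons, zs_length, Par.w]
  omega

theorem lval_slotY (P : Par) (S : ℕ) : lval (slotY P S) = 2 ^ ((P.N - S) * P.g) := by
  simp only [slotY, lval_append, lval_zs, zs_length, lval]
  simp

/-- The slots of the first operand (`Q` = number of blocks of a group). -/
def xs (P : Par) (s : ℕ → ℕ) (Q : ℕ) (V : ℕ → ℕ) (t : ℕ) : ℕ :=
  if t < 4 * P.N ∧ t % (4 * Q) < Q then
    V (t / (4 * Q) * Q + t % (4 * Q)) * 2 ^ (s (t / (4 * Q) * Q + t % (4 * Q)) * P.g)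
  else 0

/-- The slots of the second operand. -/
def ys (P : Par) (l st : ℕ) (t : ℕ) : ℕ :=
  if t % st = 0 ∧ t / st < 3 * l then 2 ^ ((P.N - chirpE P.N l (t / st)) * P.g) else 0

/-- The rows of a group, slot by slot. -/
theorem xRowsOut_eq_cat (P : Par) (hb : 0 < P.b) (E1 E2 E3 : ℕ) (blk : ℕ → List Bool) (p : Ph)
    (R : ℕ) :
    xRowsOut P E1 E2 E3 blk p R
      = cat (fun n => slotX P (phAt P E1 E2 E3 p n) (blk n)) 0 (R * P.b) := by
  rw [← cat_cat]
  unfold xRowsOut xRowOut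
  apply cat_congr
  intro i _
  apply cat_congr
  intro j hj
  simp only [Nat.zero_add, phAt]
  have h1 : (i * P.b + j) / P.b = i := by
    rw [Nat.mul_comm, Nat.mul_add_div hb, Nat.div_eq_of_lt hj, Nat.add_zero]
  have h2 : (i * P.b + j) % P.b = j := by
    rw [Nat.mul_comm, Nat.mul_add_mod, Nat.mod_eq_of_lt hj]
  rw [h1, h2]

/-- A group, slot by slot. -/
theorem xGroupOut_eq_cat (P : Par) (hb : 0 < P.b) (E1 E2 E3 : ℕ) (blk : ℕ → List Bool) (p : Ph)
    (R : ℕ) :
    xGroupOut P E1 E2 E3 blk p R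
      = cat (fun n => if n < R * P.b then slotX P (phAt P E1 E2 E3 p n) (blk n) else zs P.w) 0
        (4 * (R * P.b)) := by
  have e : 4 * (R * P.b) = R * P.b + 3 * (R * P.b) := by ring
  rw [e, cat_add]
  unfold xGroupOut
  rw [xRowsOut_eq_cat P hb]
  congr 1
  · apply cat_congr
    intro j hj
    simp only [Nat.zero_add, hj, if_true]
  · have e2 : 3 * (R * (P.b * P.w)) = 3 * (R * P.b) * P.w := by ring
    rw [e2, zs_eq_cat]
    unfold cat
    congr 1
    funext j
    have : ¬ (0 + R * P.b + j < R * P.b) := by omega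
    simp only [this, if_false]

/-- The first operand, slot by slot. -/
theorem opX_eq_cat (P : Par) (hV : P.Valid) (E1 E2 E3 iD iF R G : ℕ) (blk : ℕ → List Bool)
    (hG : G * (R * P.b) = P.N) :
    opX P E1 E2 E3 iD iF R G blk = cat (fun t =>
      if t % (4 * (R * P.b)) < R * P.b then
        slotX P (phAt P E1 E2 E3 ⟨0, iD, iF⟩ (t / (4 * (R * P.b)) * (R * P.b) + t % (4 * (R * P.b))))
          (blk (t / (4 * (R * P.b)) * (R * P.b) + t % (4 * (R * P.b))))
      else zs P.w) 0 (4 * P.N) := by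
  have hb : 0 < P.b := lt_of_lt_of_le (by norm_num) hV.b2
  have hN : 0 < P.N := Nat.mul_pos (lt_of_lt_of_le (by norm_num) hV.a2) hb
  have hQ : 0 < R * P.b := by
    rcases Nat.eq_zero_or_pos (R * P.b) with h | h
    · rw [h, Nat.mul_zero] at hG; omega
    · exact h
  have e : 4 * P.N = G * (4 * (R * P.b)) := by rw [← hG]; ring
  rw [e, ← cat_cat]
  unfold opX xOut
  apply cat_congr
  intro i _
  rw [xGroupOut_eq_cat P hb]
  apply cat_congr
  intro j hj
  simp only [Nat.zero_add]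
  have h1 : (i * (4 * (R * P.b)) + j) / (4 * (R * P.b)) = i := by
    rw [Nat.mul_comm, Nat.mul_add_div (by omega), Nat.div_eq_of_lt hj, Nat.add_zero]
  have h2 : (i * (4 * (R * P.b)) + j) % (4 * (R * P.b)) = j := by
    rw [Nat.mul_comm, Nat.mul_add_mod, Nat.mod_eq_of_lt hj]
  rw [h1, h2, phAt_rows P hb]
  have h3 : i * R * P.b + j = i * (R * P.b) + j := by ring
  rw [h3]

theorem lval_opX (P : Par) (hV : P.Valid) (E1 E2 E3 iD iF R G : ℕ) (blk : ℕ → List Bool)
    (hblk : ∀ j, (blk j).length = 2 * P.m + 2) (hD : iD < P.N) (hF : iF < P.N)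
    (hG : G * (R * P.b) = P.N) :
    lval (opX P E1 E2 E3 iD iF R G blk) =
      pack P.w (4 * P.N) (xs P (phAt P E1 E2 E3 ⟨0, iD, iF⟩) (R * P.b) fun j => lval (blk j)) := by
  have hb : 0 < P.b := lt_of_lt_of_le (by norm_num) hV.b2
  have hN : 0 < P.N := Nat.mul_pos (lt_of_lt_of_le (by norm_num) hV.a2) hb
  rw [opX_eq_cat P hV E1 E2 E3 iD iF R G blk hG, lval_cat _ P.w]
  · unfold pack
    apply Finset.sum_congr rfl
    intro t ht
    rw [Finset.mem_range] at ht
    congr 1
    simp only [Nat.zero_add, xs, ht, true_and]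
    split_ifs with h
    · rw [lval_slotX]
    · rw [lval_zs]
  · intro t
    split_ifs with h
    · exact slotX_length P hV _ (phAt_lt P hN E1 E2 E3 _ ⟨hN, hD, hF⟩ _).le _ (hblk _)
    · exact zs_length _

/-- A chirp row, slot by slot. -/
theorem yRow_eq_cat (w s1 : ℕ) (σ : List Bool) :
    σ ++ zs (s1 * w) = cat (fun j => if j = 0 then σ else zs w) 0 (s1 + 1) := by
  have e : s1 + 1 = 1 + s1 := Nat.add_comm _ _
  rw [e, cat_add, zs_eq_cat]
  congr 1
  · simp [cat]
  · unfold cat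
    congr 1
    funext j
    have : ¬ (0 + 1 + j = 0) := by omega
    simp only [this, if_false]

/-- The second operand, slot by slot. -/
theorem opY_eq_cat (P : Par) (hV : P.Valid) (l s1 : ℕ) (hlen : 3 * (l * (s1 + 1)) ≤ 4 * P.N) :
    opY P l s1 (P.N / l) = cat (fun t =>
      if t % (s1 + 1) = 0 ∧ t / (s1 + 1) < 3 * l then slotY P (chirpE P.N l (t / (s1 + 1)))
      else zs P.w) 0 (4 * P.N) := by
  have e : 4 * P.N = 3 * l * (s1 + 1) + (4 * P.N - 3 * l * (s1 + 1)) := by
    have : 3 * l * (s1 + 1) = 3 * (l * (s1 + 1)) := by ring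
    omega
  rw [e, cat_add, ← cat_cat]
  unfold opY yOut
  congr 1
  · apply cat_congr
    intro i hi
    rw [yRow_eq_cat]
    apply cat_congr
    intro j hj
    simp only [Nat.zero_add] at hi ⊢
    have h1 : (i * (s1 + 1) + j) / (s1 + 1) = i := by
      rw [Nat.mul_comm, Nat.mul_add_div (by omega), Nat.div_eq_of_lt hj, Nat.add_zero]
    have h2 : (i * (s1 + 1) + j) % (s1 + 1) = j := by
      rw [Nat.mul_comm, Nat.mul_add_mod, Nat.mod_eq_of_lt hj]
    rw [h1, h2, (yrows_S P.N (P.N / l) i).1]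
    simp only [hi, and_true, chirpE]
  · have e2 : 4 * (P.N * P.w) - 3 * l * ((s1 + 1) * P.w) = (4 * P.N - 3 * l * (s1 + 1)) * P.w := by
      rw [Nat.sub_mul]
      congr 1 <;> ring
    rw [e2, zs_eq_cat]
    unfold cat
    congr 1
    funext j
    have : ¬ ((0 + 3 * l * (s1 + 1) + j) / (s1 + 1) < 3 * l) := by
      rw [not_lt, Nat.le_div_iff_mul_le (by omega)]
      omega
    simp only [this, and_false, if_false]

theorem lval_opY (P : Par) (hV : P.Valid) (l s1 : ℕ) (hlen : 3 * (l * (s1 + 1)) ≤ 4 * P.N) :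
    lval (opY P l s1 (P.N / l)) = pack P.w (4 * P.N) (ys P l (s1 + 1)) := by
  have hb : 0 < P.b := lt_of_lt_of_le (by norm_num) hV.b2
  have hN : 0 < P.N := Nat.mul_pos (lt_of_lt_of_le (by norm_num) hV.a2) hb
  rw [opY_eq_cat P hV l s1 hlen, lval_cat _ P.w]
  · unfold pack
    apply Finset.sum_congr rfl
    intro t _
    congr 1
    simp only [Nat.zero_add, ys]
    split_ifs with h
    · rw [lval_slotY]
    · rw [lval_zs]
  · intro t
    split_ifs with h
    · exact slotY_length P hV _ (Nat.mod_lt _ hN).le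
    · exact zs_length _

theorem xs_zero (P : Par) (s : ℕ → ℕ) (Q : ℕ) (V : ℕ → ℕ) (t : ℕ) (ht : 4 * P.N ≤ t) :
    xs P s Q V t = 0 := by
  unfold xs
  rw [if_neg]
  intro h
  omega

theorem ys_zero (P : Par) (l st : ℕ) (hst : 0 < st) (hlen : 3 * (l * st) ≤ 4 * P.N) (t : ℕ)
    (ht : 4 * P.N ≤ t) : ys P l st t = 0 := by
  unfold ys
  rw [if_neg]
  intro h
  have h1 : 3 * l ≤ t / st := by
    rw [Nat.le_div_iff_mul_le hst]
    have : 3 * l * st = 3 * (l * st) := by ring
    omega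
  omega

end Vale.Agent.P338.TM.M
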