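import Vale.Agent.P338.TM.M.Conv
import Vale.Agent.P338.TM.M.Fold

/-! One stage: from the list level to the number level. -/

namespace Vale.Agent.P338.TM.M

open Vale.Agent.P338 Vale.Agent.P338.TM

/-- The slots of the product tape. -/
theorem lval_piece_prodL (P : Par) (hV : P.Valid) (E1 E2 E3 iD iF R G l s1 : ℕ)
    (blk : ℕ → List Bool) (hblk : ∀ j, (blk j).length = 2 * P.m + 2) (hD : iD < P.N)
    (hF : iF < P.N) (hl : 0 < l) (hQ : R * P.b = l * (s1 + 1)) (hG : G * (R * P.b) = P.N)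
    (t : ℕ) (ht : t < 8 * P.N) :
    lval (piece P.w (prodL P (opX P E1 E2 E3 iD iF R G blk) (opY P l s1 (P.N / l))) t) =
      conv (xs P (phAt P E1 E2 E3 ⟨0, iD, iF⟩) (R * P.b) fun j => lval (blk j))
        (ys P l (s1 + 1)) t := by
  sorry

theorem stageL_eq (P : Par) (hV : P.Valid) (E1 E2 E3 iD iF R G l s1 : ℕ)
    (blk : ℕ → List Bool) (hblk : ∀ j, (blk j).length = 2 * P.m + 2) (hD : iD < P.N)
    (hF : iF < P.N) (hl : 0 < l) (hR : 0 < R) (hQ : R * P.b = l * (s1 + 1))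
    (hG : G * (R * P.b) = P.N) :
    stageL P E1 E2 E3 iD iF R G l s1 (P.N / l) blk =
      cat (fun p => lbits (2 * P.m + 2)
        (stageN P (phAt P E1 E2 E3 ⟨0, iD, iF⟩) l (s1 + 1) (fun j => lval (blk j)) p)) 0 P.N := by
  sorry

theorem lastL_eq (P : Par) (hV : P.Valid) (E1 E2 E3 iD iF : ℕ)
    (blk : ℕ → List Bool) (hblk : ∀ j, (blk j).length = 2 * P.m + 2) (hD : iD < P.N)
    (hF : iF < P.N) :
    lastL P E1 E2 E3 iD iF blk =
      cat (fun p => lbits (2 * P.m + 2)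
        (lastN P (phAt P E1 E2 E3 ⟨0, iD, iF⟩) (fun j => lval (blk j)) p)) 0 P.N := by
  sorry

end Vale.Agent.P338.TM.M
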